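import Vale.Agent.P088.R2.H271.E.Z0N
import Vale.Agent.P088.R2.H558.G.TopL

/-!
# P088, stage 3, EST': the payments of the pairs `z0` x `z0`, `zI`, `z2a`

Literal letters of `H455/E/Lett.lean`.
-/

open Set Filter
open scoped ContDiff Topology Matrix

noncomputable section

namespace Vale.Agent.P088.R2.H271.E

open Vale.Agent.P088.LR Vale.Agent.P088.HY
open Vale.Agent.P088.R2.H31.EP Vale.Agent.P088.R2.H867.EP
open Vale.Agent.P088.R2.H551.E
open Vale.Agent.P088.R2.H455.E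
open Vale.Agent.P088.R2.H558.G
open Vale.Agent.P088.R2.H338.E (Nn)
open Vale.Agent.P088.R2.H464.Cu (mid dif rq)
open Vale.Agent.P088.R2.H794.Z0 (LC evLC NuZ)
open Vale.Agent.P088.R2.H932.EP (NrC evNr)
open Vale.Agent.P088.R2.H867.Z (Zc sq1 sqp sq1_nn sqp_nn Zc_nn)
open Vale.Agent.P088.R2.H338.C (TL)
open Vale.Agent.P088.R2.H338.TC (Na rx ry)
open Vale.Agent.P088.R2.H972.EP (NkN evNkN Nz)

variable {n : ℕ} {q : Cst} {d : Pk n} {z : VV n} {L : Lc n}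

/-! ## The general conditions -/

/-- The conditions used for all pairs. -/
structure Gc (n : ℕ) (cF CF : Cst → ℝ) (q : Cst) : Prop where
  nr : NrC n q
  lc : LC n q
  ηc : q.ηc ≤ 1
  cK : 0 < q.cK
  cs0 : 0 < q.σ / q.R
  cs1 : q.σ / q.R ≤ 1
  pt : ∀ d : Pk n, PkOk q d → ∀ z, d.ch q .z0 z ≠ 0 → Z0P (cF q) (CF q) q d z
  nk : ∀ d : Pk n, PkOk q d → ∀ k, Nz k → ∀ z, d.ch q k z ≠ 0 → NkN q d k z

/-- The constant `K ≤ CK E`. -/
def CKq (q : Cst) : ℝ := |q.ph.Cb + 18 * q.nm|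

theorem evGc (hn : 1 ≤ n) : ∃ cF CF : Cst → ℝ, NB_c' cF ∧ NB_c' CF ∧ (∀ q, 0 < cF q) ∧
    (∀ q, 0 ≤ CF q) ∧ EvC (Gc n cF CF) := by
  obtain ⟨cF, CF, h1, h2, h3, h4, h5⟩ := evZ0P hn
  refine ⟨cF, CF, h1, h2, h3, h4, ?_⟩
  have h6 : EvC fun q => q.ηc ≤ 1 := EvC.at_ηc (fun _ t => t ≤ 1) fun _ => sml_le one_pos
  refine (((evNr n).and (evLC n)).and ((h6.and EvC.pos).and (h5.and (evNkN n)))).mono ?_
  rintro q ⟨⟨a1, a2⟩, ⟨a3, ⟨-, -, -, b4, -⟩, -⟩, a5, a6⟩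
  have hR := a2.R8
  have hσ := a2.T.T.σ0
  have hσ1 := a2.T.T.σ1
  refine ⟨a1, a2, a3, b4, by positivity, ?_, a5, a6⟩
  rw [div_le_one (by linarith)]
  linarith

/-- The numbers of the zone `z0` in the form of the scalar part. -/
theorem Gc.zn {cF CF : Cst → ℝ} (g : Gc n cF CF q) (hL : L.Ok) (hc : 0 ≤ cF q) (h : PkOk q d)
    (hz : d.ch q .z0 z ≠ 0) :
    Zn (nu L.kz q d) (sg L q) (3 / q.aC) (CKq q) (cF q) (CF q) z := by
  have P := g.pt d h z hz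
  have ν := P.nu
  have ha := g.lc.T.T.aC0
  have hM := g.lc.T.T.M1
  have hs := (hL.cs).1 q
  have e : 0 < Real.exp (d.u q z) := Real.exp_pos _
  exact
    { En := e
      N1 := hM.trans ν.N1
      s0 := mul_nonneg hs.1.le g.cs0.le
      s1 := by
        show L.cs q * (q.σ / q.R) ≤ 1
        calc L.cs q * (q.σ / q.R) ≤ 1 * 1 := mul_le_mul hs.2 g.cs1 g.cs0.le zero_le_one
          _ = 1 := one_mul 1
      A0 := by positivity
      CK0 := abs_nonneg _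
      cF0 := hc
      K0 := (h.top.k0 (d.u q z)).le
      EN := by
        show Real.exp (d.u q z) ≤ 3 / q.aC * deriv d.Φ (d.u q z)
        rw [div_mul_eq_mul_div, le_div_iff₀ ha]
        linarith [ν.NE]
      KN := by
        show deriv (deriv d.Φ) (d.u q z) ≤ 3 * deriv d.Φ (d.u q z)
        have := ν.N1
        have := ν.KN
        linarith
      KE := by
        show deriv (deriv d.Φ) (d.u q z) ≤ CKq q * Real.exp (d.u q z)
        exact ν.KE.trans (mul_le_mul_of_nonneg_right (le_abs_self _) e.le)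
      f1 := P.f1
      f2 := P.f2 }

theorem sml_of {a b c B e : ℝ} (hB : 0 ≤ B) (ha : 0 ≤ a) (hc : 0 ≤ c) (he : e ≤ c / (68 * (a * B + 1)))
    (hb : c ≤ b) : 34 * (a * (e * B)) ≤ b / 2 := by
  have h1 : 0 ≤ a * B := mul_nonneg ha hB
  have h2 : 34 * (a * (e * B)) ≤ 34 * (a * (c / (68 * (a * B + 1)) * B)) := by gcongr
  have h3 : 34 * (a * (c / (68 * (a * B + 1)) * B)) = c / 2 * (a * B / (a * B + 1)) := by
    field_simp
    ring
  have h4 : a * B / (a * B + 1) ≤ 1 := by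
    rw [div_le_one (by linarith)]
    linarith
  calc 34 * (a * (e * B)) ≤ c / 2 * (a * B / (a * B + 1)) := by rw [← h3]; exact h2
    _ ≤ c / 2 * 1 := by gcongr
    _ ≤ b / 2 := by linarith

/-! ## `z0`, `z0` -/

/-- The parameter. -/
def t00 (L : Lc n) (q : Cst) : ℝ := L.c0 q / (68 * (L.C0 q * B0 n q + 1))

theorem t00_sm (hL : L.Ok) : SmE (t00 L) := by
  refine ⟨fun q => ?_, fun q => ?_⟩
  · unfold t00
    rw [hL.c0.2 q, hL.C0.2 q, B0_nb n q]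
  · have h1 := hL.c0.1 q
    have h2 := hL.C0.1 q
    have h3 := B0_nn n q
    unfold t00
    positivity

/-- **The pair `z0`, `z0`.** -/
theorem pay_00 (hn : 1 ≤ n) (hL : L.Ok) : PayEW L .z0 .z0 := by
  obtain ⟨cF, CF, nF, NF, pF, PF, hG⟩ := evGc hn
  refine ⟨t00 L, t00_sm hL, fun e he hth => ?_⟩
  have hT : EvC fun q =>
      34 * (L.C0 q * (1 / e q * (CKq q + 1) * B0 n q)) * (2 / L.c0 q) ≤ q.M₀ := ev_M fun q => by
    simp only [hL.c0.2 q, hL.C0.2 q, B0_nb n q, he.1 q]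
    rfl
  refine (hG.and hT).mono ?_
  rintro q ⟨g, hT⟩ d h z hz - a b
  have hc := hL.c0.1 q
  have hC := hL.C0.1 q
  have hB := B0_nn n q
  have zn := g.zn (L := L) hL (pF q).le h hz
  have hM : q.M₀ ≤ d.N q z := (g.pt d h z hz).nu.N1
  have n1 := sml_of (a := L.C0 q) (b := L.c0 q) hB hC.le hc.le (hth q) le_rfl
  refine c0_pay0 (σ := d.sx) (τ := d.sy) (v₁ := fun _ => 0) (v₂ := fun _ => 0) (W := d.W q)
    (a := a) (b := b) (η := e q) (Zm := B0 n q) zn (by norm_num) hC.le (he.2 q) hc.le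
    (sq1_nn _ _) (sq1_z0 g.nr g.ηc h g.lc.T.T.c0 z) n1 ?_
  show _ ≤ L.c0 q / 2 * d.N q z
  have h1 : 34 * (L.C0 q * (1 / e q * (CKq q + 1) * B0 n q)) * (2 / L.c0 q) ≤ d.N q z :=
    hT.trans hM
  have h2 := mul_le_mul_of_nonneg_left h1 (by positivity : 0 ≤ L.c0 q / 2)
  refine le_trans (le_of_eq ?_) h2
  field_simp

/-! ## `z0` against a margin of `zI` or `z2a` -/

/-- The pointwise payment of the cost `z0`. -/
theorem pay_0M {cF CF : Cst → ℝ} (g : Gc n cF CF q) (hL : L.Ok) (hF : 0 < cF q) (h : PkOk q d)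
    (hz : d.ch q .z0 z ≠ 0) {M : Q8 (VV n)} (hM : Nn M z) {c e : ℝ} (hc : 0 < c) (he : 0 < e)
    (ht : e ≤ c * min 1 (cF q) / (68 * (L.C0 q * B0 n q + 1)))
    (hT : 34 * (L.C0 q * (1 / e * (3 / q.aC + 4) * B0 n q)) * (2 / (c * cF q)) ≤ q.M₀)
    (z1 : c ≤ M.ζ₁ z) (z2 : c ≤ M.ζ₂ z) (w1 : c * d.sx.F (d.W q) z ≤ M.w₁ z)
    (w2 : c * d.sy.F (d.W q) z ≤ M.w₂ z) (a b : VV n → ℝ) :
    34 * den d q (H165.Tab.c0 (nu L.kz q d) (L.C0 q) (sg L q) (sq1 (d.ch q .z0)) e) a b z ≤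
      den d q M a b z := by
  have hC := hL.C0.1 q
  have hB := B0_nn n q
  have zn := g.zn (L := L) hL hF.le h hz
  have P := g.pt d h z hz
  have hMN : q.M₀ ≤ d.N q z := P.nu.N1
  have m0 : 0 < min 1 (cF q) := lt_min one_pos hF
  have n1 := sml_of (a := L.C0 q) (b := c) hB hC.le (by positivity) ht
    (mul_le_of_le_one_right hc.le (min_le_left _ _))
  have n2 := sml_of (a := L.C0 q) (b := c * cF q) hB hC.le (by positivity) ht
    (mul_le_mul_of_nonneg_left (min_le_right _ _) hc.le)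
  refine c0_pay (σ := d.sx) (τ := d.sy) (v₁ := fun _ => 0) (v₂ := fun _ => 0) (W := d.W q)
    (a := a) (b := b) (η := e) (Zm := B0 n q) (c₁ := c) (c₂ := c * cF q) zn hM (by norm_num)
    hC.le he (sq1_nn _ _) (sq1_z0 g.nr g.ηc h g.lc.T.T.c0 z) z1 z2 ?_ ?_ ?_ n2 ?_
  · refine le_trans (le_of_eq ?_) ((mul_le_mul_of_nonneg_left P.f1.1 hc.le).trans w1)
    show c * cF q * d.N q z ^ 2 = _
    ring
  · refine le_trans (le_of_eq ?_) ((mul_le_mul_of_nonneg_left P.f2.1 hc.le).trans w2)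
    show c * cF q * d.N q z ^ 2 = _
    ring
  · linarith
  · show _ ≤ c * cF q / 2 * d.N q z
    have h2 := mul_le_mul_of_nonneg_left (hT.trans hMN) (by positivity : 0 ≤ c * cF q / 2)
    refine le_trans (le_of_eq ?_) h2
    field_simp

/-- The parameter. -/
def t0M (L : Lc n) (c cF : Cst → ℝ) (q : Cst) : ℝ :=
  c q * min 1 (cF q) / (68 * (L.C0 q * B0 n q + 1))

theorem t0M_sm (hL : L.Ok) {c cF : Cst → ℝ} (h1 : NB_c' c) (h2 : NB_c' cF) (h3 : ∀ q, 0 < c q)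
    (h4 : ∀ q, 0 < cF q) : SmE (t0M L c cF) := by
  refine ⟨fun q => ?_, fun q => ?_⟩
  · unfold t0M
    rw [h1 q, h2 q, hL.C0.2 q, B0_nb n q]
  · have m0 : 0 < min 1 (cF q) := lt_min one_pos (h4 q)
    have k1 := h3 q
    have k2 := hL.C0.1 q
    have k3 := B0_nn n q
    unfold t0M
    positivity

theorem t0M_M (hL : L.Ok) {c cF e : Cst → ℝ} (h1 : NB_c' c) (h2 : NB_c' cF) (he : NB_c' e) :
    EvC fun q => 34 * (L.C0 q * (1 / e q * (3 / q.aC + 4) * B0 n q)) * (2 / (c q * cF q)) ≤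
      q.M₀ := ev_M fun q => by
  simp only [hL.C0.2 q, B0_nb n q, he q, h1 q, h2 q]
  rfl

/-- The margin of region I has nonnegative letters. -/
theorem nn_I {cF CF : Cst → ℝ} (g : Gc n cF CF q) (hL : L.Ok) (h : PkOk q d)
    (P : Z0P (cF q) (CF q) q d z) (hF : 0 ≤ cF q) : Nn (Mz L q d .zI) z := by
  have hc := hL.cI.1 q
  have hN := hL.cN.1 q
  have hM := g.lc.T.T.M1
  have k0 : 0 < Na d z := by
    have e : Na d z = d.N q z := by
      show deriv d.Φ (d.l z.1 + d.l z.2) = deriv d.Φ (d.u q z)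
      rw [P.u0]
    rw [e]
    have : q.M₀ ≤ d.N q z := P.nu.N1
    linarith
  have k1 : 0 < d.N q z := by
    have : q.M₀ ≤ d.N q z := P.nu.N1
    linarith
  have k2 : 0 < d.E q z := Real.exp_pos _
  have k3 : 0 ≤ d.r2 z := by
    have := (g.lc.rq d h z).1
    show 0 ≤ 2 * rq (gi d.s₁) z
    linarith
  have k4 : 0 ≤ d.m q z := mul_nonneg k2.le k3
  have k5 : 0 ≤ d.sx.F (d.W q) z := le_trans (by positivity) P.f1.1
  have k6 : 0 ≤ d.sy.F (d.W q) z := le_trans (by positivity) P.f2.1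
  have k7 : 0 ≤ rx q d z ^ 2 := sq_nonneg _
  have k8 : 0 ≤ ry q d z ^ 2 := sq_nonneg _
  constructor
  · show 0 ≤ L.cI q + 0
    linarith
  · show 0 ≤ L.cI q + L.cN q * (Na d z * (rx q d z ^ 2 + ry q d z ^ 2))
    positivity
  · show 0 ≤ L.cI q + L.cN q * (Na d z * (rx q d z ^ 2 + ry q d z ^ 2))
    positivity
  · show 0 ≤ L.cI q * d.E q z + 0
    positivity
  · show 0 ≤ L.cI q * d.sx.F (d.W q) z +
      L.cN q * (Na d z ^ 2 * rx q d z ^ 2 + Na d z ^ 3 * ry q d z ^ 2)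
    positivity
  · show 0 ≤ L.cI q * d.sy.F (d.W q) z +
      L.cN q * (Na d z ^ 3 * rx q d z ^ 2 + Na d z ^ 2 * ry q d z ^ 2)
    positivity
  · show 0 ≤ L.cI q * d.E q z ^ 2 + 0
    positivity
  · show 0 ≤ L.cI q * (d.N q z ^ 2 * d.E q z ^ 2 / (d.E q z * (1 + d.m q z) + d.N q z ^ 2)) + 0
    positivity

/-- **The pair `z0`, `zI`.** -/
theorem pay_0I (hn : 1 ≤ n) (hL : L.Ok) : PayEW L .z0 .zI := by
  obtain ⟨cF, CF, nF, NF, pF, PF, hG⟩ := evGc hn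
  have nI := nb_0c hL.cI.2
  refine ⟨t0M L L.cI cF, t0M_sm hL nI nF hL.cI.1 pF, fun e he hth => ?_⟩
  refine (hG.and (t0M_M hL nI nF he.1)).mono ?_
  rintro q ⟨g, hT⟩ d h z hz - a b
  have hc := hL.cI.1 q
  have P := g.pt d h z hz
  have hM := g.lc.T.T.M1
  have hN : 0 < Na d z := by
    have e : Na d z = d.N q z := by
      show deriv d.Φ (d.l z.1 + d.l z.2) = deriv d.Φ (d.u q z)
      rw [P.u0]
    rw [e]
    have : q.M₀ ≤ d.N q z := P.nu.N1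
    linarith
  have hN' := hL.cN.1 q
  have k7 : 0 ≤ rx q d z ^ 2 := sq_nonneg _
  have k8 : 0 ≤ ry q d z ^ 2 := sq_nonneg _
  refine pay_0M g hL (pF q) h hz (nn_I g hL h P (pF q).le) hc (he.2 q) (hth q) hT ?_ ?_ ?_ ?_ a b
  · show L.cI q ≤ L.cI q + L.cN q * (Na d z * (rx q d z ^ 2 + ry q d z ^ 2))
    have : 0 ≤ L.cN q * (Na d z * (rx q d z ^ 2 + ry q d z ^ 2)) := by positivity
    linarith
  · show L.cI q ≤ L.cI q + L.cN q * (Na d z * (rx q d z ^ 2 + ry q d z ^ 2))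
    have : 0 ≤ L.cN q * (Na d z * (rx q d z ^ 2 + ry q d z ^ 2)) := by positivity
    linarith
  · show L.cI q * d.sx.F (d.W q) z ≤ L.cI q * d.sx.F (d.W q) z +
      L.cN q * (Na d z ^ 2 * rx q d z ^ 2 + Na d z ^ 3 * ry q d z ^ 2)
    have : 0 ≤ L.cN q * (Na d z ^ 2 * rx q d z ^ 2 + Na d z ^ 3 * ry q d z ^ 2) := by positivity
    linarith
  · show L.cI q * d.sy.F (d.W q) z ≤ L.cI q * d.sy.F (d.W q) z +
      L.cN q * (Na d z ^ 3 * rx q d z ^ 2 + Na d z ^ 2 * ry q d z ^ 2)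
    have : 0 ≤ L.cN q * (Na d z ^ 3 * rx q d z ^ 2 + Na d z ^ 2 * ry q d z ^ 2) := by positivity
    linarith

/-! ## Zone II -/

/-- The convexity weight of zone II where `z2a` is alive. -/
def KzA (L : Lc n) : Prop := EvC fun q => ∀ d : Pk n, PkOk q d → ∀ z, d.ch q .z2a z ≠ 0 →
  1 ≤ L.kz q d z ∧ L.kz q d z ≤ d.m q z

/-- **The pair `z0`, `z2a`.** -/
theorem pay_0a (hn : 1 ≤ n) (hL : L.Ok) (hK : KzA L) : PayEW L .z0 .z2a := by
  obtain ⟨cF, CF, nF, NF, pF, PF, hG⟩ := evGc hn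
  refine ⟨t0M L (fun _ => 1 / 4) cF, t0M_sm hL (fun _ => rfl) nF (fun _ => by norm_num) pF,
    fun e he hth => ?_⟩
  refine ((hG.and hK).and (t0M_M hL (c := fun _ => 1 / 4) (fun _ => rfl) nF he.1)).mono ?_
  rintro q ⟨⟨g, hK⟩, hT⟩ d h z hz hj a b
  obtain ⟨k1, -⟩ := hK d h z hj
  have P := g.pt d h z hz
  have hF := pF q
  have k2 : 0 < d.E q z := Real.exp_pos _
  have k3 : 0 ≤ d.r2 z := by
    have := (g.lc.rq d h z).1
    show 0 ≤ 2 * rq (gi d.s₁) z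
    linarith
  have k5 : 0 ≤ d.sx.F (d.W q) z := le_trans (by positivity) P.f1.1
  have k6 : 0 ≤ d.sy.F (d.W q) z := le_trans (by positivity) P.f2.1
  have k0 : 0 ≤ L.kz q d z := by linarith
  have g5 := mul_le_mul_of_nonneg_right k1 k5
  have g6 := mul_le_mul_of_nonneg_right k1 k6
  have nn : Nn (Mz L q d .z2a) z := by
    constructor
    · show (0 : ℝ) ≤ 1 / 2
      norm_num
    · show 0 ≤ 1 / 2 * L.kz q d z
      positivity
    · show 0 ≤ 1 / 2 * L.kz q d z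
      positivity
    · show 0 ≤ 1 / 4 * (d.r2 z)⁻¹
      positivity
    · show 0 ≤ 1 / 4 * (L.kz q d z * d.sx.F (d.W q) z)
      positivity
    · show 0 ≤ 1 / 4 * (L.kz q d z * d.sy.F (d.W q) z)
      positivity
    · show 0 ≤ d.E q z ^ 2
      positivity
    · show (0 : ℝ) ≤ 0
      exact le_rfl
  refine pay_0M g hL (pF q) h hz nn (c := 1 / 4) (by norm_num) (he.2 q) (hth q) hT ?_ ?_ ?_ ?_ a b
  · show 1 / 4 ≤ 1 / 2 * L.kz q d z
    linarith
  · show 1 / 4 ≤ 1 / 2 * L.kz q d z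
    linarith
  · show 1 / 4 * d.sx.F (d.W q) z ≤ 1 / 4 * (L.kz q d z * d.sx.F (d.W q) z)
    linarith
  · show 1 / 4 * d.sy.F (d.W q) z ≤ 1 / 4 * (L.kz q d z * d.sy.F (d.W q) z)
    linarith

/-! ## The payments of region 0 -/

theorem st_sq (t : ℝ) : Real.smoothTransition t ^ 2 ≤ 1 := by
  have h0 := Real.smoothTransition.nonneg t
  have h1 := Real.smoothTransition.le_one t
  nlinarith

theorem rx_sq (q : Cst) (d : Pk n) (z : VV n) : rx q d z ^ 2 ≤ 1 ∧ ry q d z ^ 2 ≤ 1 := by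
  unfold H338.TC.rx H338.TC.ry H338.TC.rr
  rw [mul_pow, mul_pow]
  constructor
  · exact mul_le_one₀ (st_sq _) (sq_nonneg _) (st_sq _)
  · exact mul_le_one₀ (st_sq _) (sq_nonneg _) (st_sq _)

/-- **The pair `zI`, `z0`.** -/
theorem pay_I0 (hn : 1 ≤ n) (hL : L.Ok) : PayEW L .zI .z0 := by
  obtain ⟨cF, CF, nF, NF, pF, PF, hG⟩ := evGc hn
  refine PayEW.all fun e he => ?_
  have hT : EvC fun q => 34 * (6 * L.CI q * BI n q + L.CN q * (2 * BI n q)) * (1 / L.c0 q) ≤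
      q.M₀ := ev_M fun q => by
    simp only [hL.c0.2 q, nb_0c hL.CI.2 q, hL.CN.2 q, BI_nb n q]
  refine (hG.and hT).mono ?_
  rintro q ⟨g, hT⟩ d h z hk hz a b
  have hc := hL.c0.1 q
  have hC := hL.CI.1 q
  have hCN := hL.CN.1 q
  have hB := BI_nn n q
  have P := g.pt d h z hz
  have hM := g.lc.T.T.M1
  have ha := g.lc.T.T.aC0
  have ha1 := g.lc.T.T.aC1
  have hs := (hL.cs).1 q
  have hMN : q.M₀ ≤ d.N q z := P.nu.N1
  have nk := g.nk d h .zI (by unfold H972.EP.Nz; tauto) z hk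
  have hE : 0 < d.E q z := Real.exp_pos _
  have hNE : d.N q z ≤ d.E q z := nk.NE.trans (mul_le_of_le_one_left hE.le (by linarith))
  have hN0 : 0 ≤ d.N q z := by linarith
  obtain ⟨b1, b2⟩ := sq1_zI g.nr g.ηc h g.lc.T.T.c0 g.cK ha P.nu.Kl
  have eN : Na d z = d.N q z := by
    show deriv d.Φ (d.l z.1 + d.l z.2) = deriv d.Φ (d.u q z)
    rw [P.u0]
  obtain ⟨r1, r2⟩ := rx_sq q d z
  have s0 := sq1_nn (d.ch q .zI) z
  have ht : L.CN q * (Na d z * (rx q d z ^ 2 + ry q d z ^ 2) * sq1 (d.ch q .zI) z) ≤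
      L.CN q * (2 * BI n q) * d.N q z := by
    rw [eN]
    have e1 : rx q d z ^ 2 + ry q d z ^ 2 ≤ 2 := by linarith
    calc L.CN q * (d.N q z * (rx q d z ^ 2 + ry q d z ^ 2) * sq1 (d.ch q .zI) z) ≤
          L.CN q * (d.N q z * 2 * BI n q) := by gcongr
      _ = _ := by ring
  refine cI_pay0 (σ := d.sx) (τ := d.sy) (v₁ := fun _ => 0) (v₂ := fun _ => 0) (W := d.W q)
    (a := a) (b := b) (ν := nu L.kz q d) (Zm := BI n q) (t := L.CN q * (2 * BI n q))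
    (hM.trans hMN) hNE (mul_nonneg hs.1.le g.cs0.le) hc.le (by norm_num) hC.le
    ⟨rfl, rfl, rfl, rfl, rfl, rfl⟩ ht ht (by positivity) s0 b1 (sqp_nn _ _) b2 ?_
  show _ ≤ L.c0 q * d.N q z
  have h2 := mul_le_mul_of_nonneg_left (hT.trans hMN) hc.le
  refine le_trans (le_of_eq ?_) h2
  field_simp

/-- **The pair `z2a`, `z0`.** -/
theorem pay_a0 (hn : 1 ≤ n) (hL : L.Ok) (hK : KzA L) : PayEW L .z2a .z0 := by
  obtain ⟨cF, CF, nF, NF, pF, PF, hG⟩ := evGc hn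
  refine PayEW.all fun e he => ?_
  have nA := BA_nb n hL.K2.2
  have nC := nb_ηc hL.C2.2
  have hT1 : EvC fun q => 34 * (L.C2 q * BA n (L.K2 q) q) * (1 / L.c0 q) ≤ q.M₀ := ev_M fun q => by
    have := nA q
    simp only at this
    simp only [hL.c0.2 q, nC q, this]
  have hT2 : EvC fun q => 34 * (L.C2 q * BA n (L.K2 q) q) * (1 / (L.c0 q * (3 / 10 * q.cK))) ≤
      q.M₀ := ev_M fun q => by
    have := nA q
    simp only at this
    simp only [hL.c0.2 q, nC q, this]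
    rfl
  have hT3 : EvC fun q => 34 * (L.C2 q * BA n (L.K2 q) q) * (CF q + 2 * (3 / q.aC) ^ 2) *
      (1 / L.c0 q) ≤ q.M₀ := ev_M fun q => by
    have := nA q
    simp only at this
    simp only [hL.c0.2 q, nC q, this, NF q]
    rfl
  refine (((hG.and hK).and hT1).and (hT2.and hT3)).mono ?_
  rintro q ⟨⟨⟨g, hK⟩, hT1⟩, hT2, hT3⟩ d h z hk hz a b
  obtain ⟨k1, k2⟩ := hK d h z hk
  have hc := hL.c0.1 q
  have hC := hL.C2.1 q
  have hK2 := hL.K2.1 q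
  have P := g.pt d h z hz
  have hM := g.lc.T.T.M1
  have ha := g.lc.T.T.aC0
  have ha1 := g.lc.T.T.aC1
  have hcK := g.cK
  have zn := g.zn (L := L) hL (pF q).le h hz
  have hMN : q.M₀ ≤ d.N q z := P.nu.N1
  have nk := g.nk d h .z2a (by unfold H972.EP.Nz; tauto) z hk
  have hE : 0 < d.E q z := Real.exp_pos _
  have hNE : d.N q z ≤ d.E q z := nk.NE.trans (mul_le_of_le_one_left hE.le (by linarith))
  have hN0 : 0 < d.N q z := by linarith
  obtain ⟨m1, m2⟩ := Zc_z2a g.nr g.ηc h hK2.le hcK ha P.nu.Kl hN0 nk.NE (nk.ta rfl) k1 k2 nk.r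
  have hρ : 0 ≤ rq (gi d.s₁) z := (g.lc.rq d h z).1
  have z0 : 0 ≤ Zc (L.K2 q) 1 (rq (gi d.s₁)) (d.E q) (d.N q) (L.kz q d) (d.ch q .z2a) z :=
    Zc_nn hK2.le zero_le_one hρ (by linarith)
  have up : ∀ x y : ℝ, 0 < y → x * (1 / y) ≤ q.M₀ → x ≤ y * d.N q z := by
    intro x y hy hx
    have h2 := mul_le_mul_of_nonneg_left (hx.trans hMN) hy.le
    refine le_trans (le_of_eq ?_) h2
    field_simp
  refine cII_pay0 (σ := d.sx) (τ := d.sy) (v₁ := fun _ => 0) (v₂ := fun _ => 0) (W := d.W q)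
    (a := a) (b := b) (Zm := BA n (L.K2 q) q) (f := 3 / 10 * q.cK) zn hc.le (by norm_num) hC.le
    (by positivity) hNE rfl m1 z0 m2 ?_ ?_ ?_
  · exact up _ _ hc hT1
  · exact up _ _ (by positivity) hT2
  · exact up _ _ hc hT3

end Vale.Agent.P088.R2.H271.E
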