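import Vale.Agent.P088.R2.H271.E.Pay0
import Vale.Agent.P088.R2.H238.Z.KeP

/-!
# P088, stage 3, EST': the payments `z0` x `z2a` for the literal convexity weight
-/

open Set Filter

noncomputable section

namespace Vale.Agent.P088.R2.H271.E

open Vale.Agent.P088.R2.H31.EP Vale.Agent.P088.R2.H455.E Vale.Agent.P088.R2.H558.G

variable {n : ℕ} {L : Lc n}

theorem kzA_of (hn : 1 ≤ n) (hL : L.kz = H942.Pk.kz) : KzA L := by
  refine (H238.Z.ke hn (fun _ => 1) fun _ => rfl).mono fun q hq d h z hz => ?_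
  rw [hL]
  obtain ⟨h1, h2⟩ := hq d h z (Or.inl hz)
  refine ⟨le_trans ?_ h1, h2⟩
  have : 0 ≤ d.N q z ^ 2 / d.m q z ^ 2 := by positivity
  linarith

/-- **The pair `z0`, `z2a`.** -/
theorem pay_0a' (hn : 1 ≤ n) (hL : L.Ok) (hk : L.kz = H942.Pk.kz) : PayEW L .z0 .z2a :=
  pay_0a hn hL (kzA_of hn hk)

/-- **The pair `z2a`, `z0`.** -/
theorem pay_a0' (hn : 1 ≤ n) (hL : L.Ok) (hk : L.kz = H942.Pk.kz) : PayEW L .z2a .z0 :=
  pay_a0 hn hL (kzA_of hn hk)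

end Vale.Agent.P088.R2.H271.E
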