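import Vale.Agent.P088.R2.H271.E.Z0W
import Vale.Agent.P088.R2.H271.E.P0
import Vale.Agent.P088.R2.H794.Z0.Row
import Vale.Agent.P088.R2.H972.EP.Zs

/-!
# P088, stage 3, EST': the numbers of the zone `z0` on the package
-/

open Set Filter
open scoped ContDiff Topology Matrix

noncomputable section

namespace Vale.Agent.P088.R2.H271.E

open Vale.Agent.P088.LR Vale.Agent.P088.HY
open Vale.Agent.P088.R2.H31.EP Vale.Agent.P088.R2.H867.EP
open Vale.Agent.P088.R2.H464.Cu (mid dif rq bf Nr sx sy)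
open Vale.Agent.P088.R2.H437.Z0 (Hz Loc0 RowZ0 W0 uf dv kX kX_pos)
open Vale.Agent.P088.R2.H794.Z0 (LC evLC rowZ0 supp ΩZ ΩZ_nu u_eq NuZ)
open Vale.Agent.P088.R2.H932.EP (JB ep wt wt_nonneg NrC cN cN_nb' αc evNr)
open Vale.Agent.P088.R2.H932.EP.NrC (Sα Sβ Calm)
open Vale.Agent.P088.R2.H205.CP (gq gp dq dp)
open Vale.Agent.P088.R2.H867.Z (Zc Zc_le dx_ep dy_ep sq1 sqp)
open Vale.Agent.P088.R2.H972.EP (a0 a0_nb a0_nn ch_d ch_d1 dq_ep sum_sq_le gp_le gq_le NkN evNkN)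

variable {n : ℕ} {q : Cst} {d : Pk n} {z : VV n}

/-! ## The order of the constants -/

theorem nb_ηM {f : Cst → ℝ} (h : NB_ηc f) (q : Cst) : f q.b_M₀ = f q :=
  (h q.b_M₀).symm.trans (h q)

theorem nb_cM {f : Cst → ℝ} (h : NB_c' f) (q : Cst) : f q.b_M₀ = f q :=
  (h q.b_M₀).symm.trans (h q)

theorem nb_ηc {f : Cst → ℝ} (h : NB_ηc f) : NB_c' f := fun q =>
  (h q.b_c').symm.trans (h q)

theorem nb_0c {f : Cst → ℝ} (h : NB_c₀ f) : NB_c' f := fun q =>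
  (h q.b_c').symm.trans (h q)

/-- `M₀` is larger than everything chosen before `c'`. -/
theorem ev_M {f : Cst → ℝ} (h : NB_c' f) : EvC fun q => f q ≤ q.M₀ := by
  refine (EvC.at_M₀ (fun q t => f q ≤ t) fun q => eventually_ge_atTop _).mono fun q hq => ?_
  rwa [nb_cM h q] at hq

/-! ## The numbers -/

/-- The numbers where `z0` is alive. -/
structure Z0P (cF CF : ℝ) (q : Cst) (d : Pk n) (z : VV n) : Prop where
  nu : NuZ q d (d.u q z)
  u0 : d.u q z = d.l z.1 + d.l z.2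
  f1 : cF * d.N q z ^ 2 ≤ d.sx.F (d.W q) z ∧ d.sx.F (d.W q) z ≤ CF * d.N q z ^ 2
  f2 : cF * d.N q z ^ 2 ≤ d.sy.F (d.W q) z ∧ d.sy.F (d.W q) z ≤ CF * d.N q z ^ 2

theorem F_congr {W W' : VV n → ℝ} {Ω : Set (VV n)} (hΩ : IsOpen Ω) (hz : z ∈ Ω)
    (h : ∀ w ∈ Ω, W w = W' w) (s₁ s₂ : MF n) :
    (sx s₁).F W z = (sx s₁).F W' z ∧ (sy s₂).F W z = (sy s₂).F W' z := by
  have e : W =ᶠ[𝓝 z] W' := by
    filter_upwards [hΩ.mem_nhds hz] with w hw using h w hw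
  have ex : (fun i => (sx s₁).D i W z) = fun i => (sx s₁).D i W' z := by
    funext i
    rw [Vale.Agent.P088.R2.H464.Cu.Dx1, Vale.Agent.P088.R2.H464.Cu.Dx1, e.fderiv_eq]
  have ey : (fun i => (sy s₂).D i W z) = fun i => (sy s₂).D i W' z := by
    funext i
    rw [Vale.Agent.P088.R2.H464.Cu.Dy1, Vale.Agent.P088.R2.H464.Cu.Dy1, e.fderiv_eq]
  constructor
  · show bf (s₁ z.1) (fun i => (sx s₁).D i W z) (fun i => (sx s₁).D i W z) =
      bf (s₁ z.1) (fun i => (sx s₁).D i W' z) (fun i => (sx s₁).D i W' z)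
    rw [ex]
  · show bf (s₂ z.2) (fun i => (sy s₂).D i W z) (fun i => (sy s₂).D i W z) =
      bf (s₂ z.2) (fun i => (sy s₂).D i W' z) (fun i => (sy s₂).D i W' z)
    rw [ey]

/-- **The numbers of the zone `z0`.** -/
theorem evZ0P (hn : 1 ≤ n) : ∃ cF CF : Cst → ℝ, NB_c' cF ∧ NB_c' CF ∧ (∀ q, 0 < cF q) ∧
    (∀ q, 0 ≤ CF q) ∧ EvC fun q => ∀ d : Pk n, PkOk q d → ∀ z, d.ch q .z0 z ≠ 0 →
      Z0P (cF q) (CF q) q d z := by
  obtain ⟨Λ₀, cβ, cε, cs, c₁, Λ, hΛ₀, hβ, -, -, -, -, -, nΛ, hΛ, H⟩ := rowZ0 hn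
  have h0 : EvC fun q => 0 < q.aC → kX n Λ₀ (q.aC / 4) * (cβ * q.c₀) ≤ 1 ∧ cβ * q.c₀ ≤ 1 := by
    refine EvC.at_c₀ (fun q t => 0 < q.aC → kX n Λ₀ (q.aC / 4) * (cβ * t) ≤ 1 ∧ cβ * t ≤ 1)
      fun q => ?_
    by_cases hq : 0 < q.aC
    · have hk := kX_pos n (Λ₀ := Λ₀) (a := q.aC / 4) hΛ₀ (by positivity)
      filter_upwards [sml_le (a := 1 / (kX n Λ₀ (q.aC / 4) * cβ)) (by positivity),
        sml_le (a := 1 / cβ) (by positivity)] with t h1 h2 _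
      rw [le_div_iff₀ (by positivity)] at h1 h2
      exact ⟨by linarith, by linarith⟩
    · exact Eventually.of_forall fun _ a => absurd a hq
  refine ⟨fun _ => cL n Λ₀, fun q => |cU n Λ₀ (q.aC / 4) (Λ q)|, fun _ => rfl, fun q => ?_,
    fun _ => cL_pos n Λ₀, fun _ => abs_nonneg _, ?_⟩
  · have := nb_ηc nΛ q
    simp only [this]
    rfl
  · refine (((H (fun _ => 1) (fun _ => rfl) fun _ => one_pos).and h0).and (evLC n)).mono ?_
    rintro q ⟨⟨k1, k2⟩, C⟩ d hd z hz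
    have hzs : z ∈ tsupport (d.ch q .z0) := subset_tsupport _ hz
    have ha := C.T.T.aC0
    obtain ⟨k3, k4⟩ := k2 ha
    obtain ⟨O, Ω, hzΩ, hz', hW⟩ := k1 d hd z hzs
    have hΩz := supp C hd hzs
    have eu : d.u q z = uf d.l z := u_eq hn C hd hΩz
    have eN : d.N q z = deriv d.Φ (uf d.l z) := by
      show deriv d.Φ (d.u q z) = _
      rw [eu]
    have lo := F_ge hz' hΛ₀ (by positivity) k4 k3 hzΩ
    have up := F_le hz' hΛ₀ (by linarith [hΛ q]) (by positivity) k4 hzΩ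
    have ec := F_congr hz'.dt.oΩ hzΩ hW d.s₁ d.s₂
    have ab := mul_le_mul_of_nonneg_right (le_abs_self (cU n Λ₀ (q.aC / 4) (Λ q)))
      (sq_nonneg (deriv d.Φ (uf d.l z)))
    refine ⟨ΩZ_nu C hd hΩz, eu, ?_, ?_⟩
    · rw [eN]
      exact ⟨lo.1.trans (le_of_eq ec.1.symm), (le_of_eq ec.1).trans (up.1.trans ab)⟩
    · rw [eN]
      exact ⟨lo.2.trans (le_of_eq ec.2.symm), (le_of_eq ec.2).trans (up.2.trans ab)⟩

/-! ## The cut-offs -/

theorem sq1_eq (χ : VV n → ℝ) (z : VV n) : sq1 χ z = 1 / 2 * gp χ z + 2 * gq χ z := by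
  unfold H867.Z.sq1 H205.CP.gp H205.CP.gq H205.CP.dp H205.CP.dq
  rw [Finset.mul_sum, Finset.mul_sum, ← Finset.sum_add_distrib]
  exact Finset.sum_congr rfl fun i _ => by ring

theorem sqp_eq (χ : VV n → ℝ) (z : VV n) : sqp χ z = gp χ z := rfl

/-- `|D_q χ|²` in region 0. -/
theorem gq_le0 (hq : NrC n q) (hη : q.ηc ≤ 1) (h : PkOk q d) (hc0 : 0 < q.c₀) (z : VV n) :
    gq (d.ch q .z0) z ≤ n * (a0 n q ^ 2 * (1 + 2 / q.c₀ ^ 2)) := by
  have hk : Near .z0 := by unfold Near; tauto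
  refine sum_sq_le fun i => ?_
  rw [dq_ep]
  have key : |fderiv ℝ (d.ch q .z0) z (ep (Sum.inr i))| ^ 2 ≤
      a0 n q ^ 2 * (1 + 2 / q.c₀ ^ 2) := by
    by_cases hc : Calm d q .z0 z
    · have h1 := pow_le_pow_left₀ (abs_nonneg _) (ch_d1 hq hη h hk hc (Sum.inr i)) 2
      refine h1.trans (le_mul_of_one_le_right (sq_nonneg _) ?_)
      have : 0 ≤ 2 / q.c₀ ^ 2 := by positivity
      linarith
    · have h2 : 0 < rq (gi d.s₁) z ∧ (rq (gi d.s₁) z)⁻¹ ≤ 2 / q.c₀ ^ 2 := by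
        unfold H932.EP.NrC.Calm at hc
        push Not at hc
        obtain ⟨i, hi, hi', h3, h4⟩ := hc
        rcases hi' with rfl | rfl | rfl
        · have h5 : q.c₀ ^ 2 ≤ 2 * rq (gi d.s₁) z := tauR_ge hc0 h3.le
          have h6 : 0 < q.c₀ ^ 2 := by positivity
          have h7 : 0 < rq (gi d.s₁) z := by linarith
          refine ⟨h7, ?_⟩
          rw [inv_eq_one_div, div_le_div_iff₀ h7 h6]
          linarith
        · exact absurd hi (by decide)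
        · exact absurd hi (by decide)
      have h1 := ch_d hq hη h hk h2.1 (Sum.inr i)
      have h5 : wt (rq (gi d.s₁) z) (Sum.inr i) = (√(rq (gi d.s₁) z))⁻¹ := rfl
      have h6 := pow_le_pow_left₀ (abs_nonneg _) h1 2
      rw [h5, mul_pow, inv_pow, Real.sq_sqrt h2.1.le] at h6
      refine h6.trans (mul_le_mul_of_nonneg_left ?_ (sq_nonneg _))
      linarith [h2.2]
  rwa [sq_abs] at key

/-- The bound of the cut-off `z0`. -/
def B0 (n : ℕ) (q : Cst) : ℝ := n * a0 n q ^ 2 * (3 + 4 / q.c₀ ^ 2)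

theorem B0_nn (n : ℕ) (q : Cst) : 0 ≤ B0 n q := by unfold B0; positivity

theorem B0_nb (n : ℕ) : NB_c' (B0 n) := fun q => by
  unfold B0
  rw [nb_ηc (a0_nb n) q]
  rfl

/-- The bound of the cut-off `zI` where `z0` is alive. -/
def BI (n : ℕ) (q : Cst) : ℝ := n * a0 n q ^ 2 * (3 + 4 / q.c₀ ^ 2 + 14 / |q.cK * q.aC|)

theorem BI_nn (n : ℕ) (q : Cst) : 0 ≤ BI n q := by unfold BI; positivity

theorem BI_nb (n : ℕ) : NB_c' (BI n) := fun q => by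
  unfold BI
  rw [nb_ηc (a0_nb n) q]
  rfl

theorem sq1_z0 (hq : NrC n q) (hη : q.ηc ≤ 1) (h : PkOk q d) (hc0 : 0 < q.c₀) (z : VV n) :
    sq1 (d.ch q .z0) z ≤ B0 n q := by
  have h1 := gq_le0 hq hη h hc0 z
  have h2 := gp_le hq hη h (k := .z0) (by unfold Near; tauto) z
  rw [sq1_eq]
  unfold B0
  have h3 : 0 ≤ n * a0 n q ^ 2 := by positivity
  have e : n * (a0 n q ^ 2 * (1 + 2 / q.c₀ ^ 2)) =
      n * a0 n q ^ 2 + n * a0 n q ^ 2 * (2 / q.c₀ ^ 2) := by ring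
  have e2 : n * a0 n q ^ 2 * (3 + 4 / q.c₀ ^ 2) =
      3 * (n * a0 n q ^ 2) + 2 * (n * a0 n q ^ 2 * (2 / q.c₀ ^ 2)) := by ring
  rw [e] at h1
  rw [e2]
  linarith

theorem sq1_zI (hq : NrC n q) (hη : q.ηc ≤ 1) (h : PkOk q d) (hc0 : 0 < q.c₀) (hcK : 0 < q.cK)
    (haC : 0 < q.aC) (hK : 3 / 10 * q.aC * d.E q z ≤ d.Kf q z) :
    sq1 (d.ch q .zI) z ≤ BI n q ∧ sqp (d.ch q .zI) z ≤ BI n q := by
  have h1 := gq_le hq hη h hc0 hcK z
  have h2 := gp_le hq hη h (k := .zI) (by unfold Near; tauto) z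
  have h3 : 0 ≤ n * a0 n q ^ 2 := by positivity
  have hE : 0 < d.E q z := Real.exp_pos _
  have ab : |q.cK * q.aC| = q.cK * q.aC := abs_of_pos (mul_pos hcK haC)
  have h4 : 2 * d.E q z / (q.cK * d.Kf q z) ≤ 7 / (q.cK * q.aC) := by
    have k0 : 0 < q.cK * (3 / 10 * q.aC * d.E q z) := by positivity
    calc 2 * d.E q z / (q.cK * d.Kf q z) ≤ 2 * d.E q z / (q.cK * (3 / 10 * q.aC * d.E q z)) := by
          refine div_le_div_of_nonneg_left (by positivity) k0 ?_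
          gcongr
      _ = 20 / 3 / (q.cK * q.aC) := by field_simp; norm_num
      _ ≤ 7 / (q.cK * q.aC) := by gcongr; norm_num
  have h5 : 0 ≤ 4 / q.c₀ ^ 2 := by positivity
  have h6 : 0 ≤ 14 / (q.cK * q.aC) := by positivity
  have e2 : BI n q = n * a0 n q ^ 2 * (3 + 4 / q.c₀ ^ 2 + 14 / (q.cK * q.aC)) := by
    unfold BI
    rw [ab]
  rw [e2]
  constructor
  · rw [sq1_eq]
    have h7 : n * (a0 n q ^ 2 * (1 + 2 / q.c₀ ^ 2 + 2 * d.E q z / (q.cK * d.Kf q z))) ≤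
        n * a0 n q ^ 2 * (1 + 2 / q.c₀ ^ 2 + 7 / (q.cK * q.aC)) := by
      rw [← mul_assoc]
      gcongr
    have h8 := h1.trans h7
    have e3 : n * a0 n q ^ 2 * (3 + 4 / q.c₀ ^ 2 + 14 / (q.cK * q.aC)) =
        n * a0 n q ^ 2 + 2 * (n * a0 n q ^ 2 * (1 + 2 / q.c₀ ^ 2 + 7 / (q.cK * q.aC))) := by ring
    rw [e3]
    linarith
  · rw [sqp_eq]
    refine h2.trans (le_mul_of_one_le_right h3 ?_)
    linarith

/-- The bound of the letter `Zc` of `z2a` where `z0` is alive. -/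
def BA (n : ℕ) (K2 : ℝ) (q : Cst) : ℝ := 10 * n * K2 * (a0 n q * (2 + 4 / q.cK)) ^ 2

theorem BA_nb (n : ℕ) {K2 : Cst → ℝ} (h : NB_ηc K2) : NB_c' fun q => BA n (K2 q) q := fun q => by
  simp only [BA, nb_ηc (a0_nb n) q, nb_ηc h q]
  rfl

theorem Zc_z2a (hq : NrC n q) (hη : q.ηc ≤ 1) (h : PkOk q d) {K2 : ℝ} {kz : VV n → ℝ}
    (hK2 : 0 ≤ K2) (hcK : 0 < q.cK) (haC : 0 < q.aC) (hK : 3 / 10 * q.aC * d.E q z ≤ d.Kf q z)
    (hN : 0 < d.N q z) (hNE : d.N q z ≤ q.aC * d.E q z) (hm : q.cK * d.Kf q z ≤ d.m q z)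
    (k1 : 1 ≤ kz z) (k2 : kz z ≤ d.m q z) (hr : d.r2 z ≤ 4 * q.c₀ ^ 2) :
    3 / 10 * q.cK * d.N q z ≤ d.m q z ∧
      Zc K2 1 (rq (gi d.s₁)) (d.E q) (d.N q) kz (d.ch q .z2a) z ≤ BA n K2 q := by
  have hE : 0 < d.E q z := Real.exp_pos _
  have hn : (0 : ℝ) ≤ n := Nat.cast_nonneg n
  have em : d.m q z = d.E q z * (2 * rq (gi d.s₁) z) := rfl
  have m1 : 3 / 10 * q.cK * d.N q z ≤ d.m q z := by
    refine le_trans ?_ hm
    calc 3 / 10 * q.cK * d.N q z ≤ 3 / 10 * q.cK * (q.aC * d.E q z) := by gcongr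
      _ = q.cK * (3 / 10 * q.aC * d.E q z) := by ring
      _ ≤ _ := by gcongr
  have hm0 : 0 < d.m q z := lt_of_lt_of_le (by positivity) m1
  refine ⟨m1, ?_⟩
  have hρ : 0 < rq (gi d.s₁) z := by
    rw [em] at hm0
    by_contra hc
    have := mul_nonpos_of_nonneg_of_nonpos hE.le (by linarith : 2 * rq (gi d.s₁) z ≤ 0)
    linarith
  have hρ1 : rq (gi d.s₁) z ≤ 1 := by
    have e : d.r2 z = 2 * rq (gi d.s₁) z := rfl
    have h3 := hq.c1
    have h4 : 0 < q.c₀ := (hq.sm d h).cp.c₀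
    nlinarith
  have ha := a0_nn hq
  have hk : Near .z2a := by unfold Near; tauto
  have hk0 : 0 < kz z := by linarith
  have J := hq.chJ h hk hρ
  have J' : JB ep (wt (rq (gi d.s₁) z)) (d.ch q .z2a) (a0 n q) _ z := J.mono (wt_nonneg _)
    (mul_le_mul_of_nonneg_left (H972.EP.Sa_le hq hη d .z2a z) H932.EP.NrC.BF0) le_rfl
  refine (Zc_le hK2 one_pos hk0 hN.le hE hρ hρ1 J').trans ?_
  rw [← em, one_mul]
  have h5 : 1 + (d.N q z + kz z) / d.m q z ≤ 2 + 4 / q.cK := by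
    have h6 : kz z / d.m q z ≤ 1 := (div_le_one hm0).2 k2
    have h7 : d.N q z / d.m q z ≤ 4 / q.cK := by
      rw [div_le_div_iff₀ hm0 hcK]
      linarith
    rw [add_div]
    linarith
  have h8 : 0 ≤ 1 + (d.N q z + kz z) / d.m q z := by positivity
  unfold BA
  calc 10 * n * K2 * (a0 n q * (1 + (d.N q z + kz z) / d.m q z)) ^ 2 / kz z ≤
        10 * n * K2 * (a0 n q * (1 + (d.N q z + kz z) / d.m q z)) ^ 2 :=
        div_le_self (by positivity) k1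
    _ ≤ _ := by gcongr

end Vale.Agent.P088.R2.H271.E
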